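import Vale.Agent.N361.Main

open Filter Topology Vale.Agent.N361
open Vale.Agent.P361S42 (IsSpin)

/-- Every spin `S = n / 2`, every triple of spin matrices. (1), (2) Order in fields that vanish
with the volume, and the second moment of the magnetization in zero field, on tori and on cubes
with free boundary conditions; `L = 2 N + 1`. -/
theorem Vale.Agent.Results.P361.A0ZeroFieldOrder.result (n : ℕ) (hn : 1 ≤ n)
    (S : Fin 3 → Matrix (Fin (n + 1)) (Fin (n + 1)) ℂ) (hS : IsSpin (n / 2) S)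
    (δ : ℝ) (hδ : 0 < δ) :
    ∃ C : ℝ, ∀ᶠ β : ℝ in atTop, ∀ᶠ N : ℕ in atTop,
      (∀ h ≥ (2 * N + 1 : ℝ) ^ (δ - 3), (n / 2 - C * β ^ (-(3 / 2) : ℝ)) * (2 * N + 1) ^ 3 ≤
        moment S (torus (2 * N + 1)) β h 1) ∧
      (2 * N + 1 : ℝ) ^ (6 - δ) ≤ moment S (torus (2 * N + 1)) β 0 2 ∧
      (∀ h ≥ (2 * N + 1 : ℝ) ^ (δ - 1), (n / 2 - C * β ^ (-(3 / 2) : ℝ)) * (2 * N + 1) ^ 3 ≤
        moment S (cube N) β h 1) ∧
      (2 * N + 1 : ℝ) ^ (4 - δ) ≤ moment S (cube N) β 0 2 :=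
  order hn hS hδ
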